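import Vale.Agent.P088.R2.H935.G.Gp
import Vale.Agent.P088.R2.H935.G.Num
import Vale.Agent.P088.R2.H455.E.Lett
import Vale.Agent.P088.R2.H349.EP.FW4
import Vale.Agent.P088.R2.H972.EP.Num
import Vale.Agent.P088.R2.H606.EP.Al

/-!
# P088, stage 3, row GAIN: the leaves `zB` and `z2b`
-/

open MeasureTheory Set Filter
open scoped ContDiff Topology Matrix

noncomputable section

namespace Vale.Agent.P088.R2.H420.G

open Vale.Agent.P088.LR Vale.Agent.P088.HY Vale.Agent.P088.R2.H961.GW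
open Vale.Agent.P088.R2.H551.E Vale.Agent.P088.R2.H31.EP Vale.Agent.P088.R2.H455.E
open Vale.Agent.P088.R2.H935.G Vale.Agent.P088.R2.H349.EP
open Vale.Agent.P088.R2.H464.Cu (mid dif rq)
open Vale.Agent.P088.R2.H850.E (lw)
open Vale.Agent.P088.R2.H867.EP (Zo)
open Vale.Agent.P088.R2.H972.EP (NkN evNkN Nz)

variable {n : ℕ} {q : Cst} {d : Pk n}

/-! ## From the derivatives to the slots -/

section slots

variable {W : VV n → ℝ} {z : VV n} {a b : ℝ}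

theorem nrm_x (i : Fin n) : ‖((Pi.single i 1, 0) : VV n)‖ ≤ 1 := H606.Z.nx_le i

theorem nrm_y (i : Fin n) : ‖((0, Pi.single i 1) : VV n)‖ ≤ 1 := H606.Z.ny_le i

theorem sum2_le {t : Fin n → Fin n → ℝ} {C : ℝ} (h : ∀ i j, |t i j| ≤ C) :
    |∑ i, ∑ j, t i j| ≤ (n : ℝ) ^ 2 * C := by
  calc |∑ i, ∑ j, t i j| ≤ ∑ i, ∑ j, |t i j| :=
        (Finset.abs_sum_le_sum_abs _ _).trans
          (Finset.sum_le_sum fun i _ => Finset.abs_sum_le_sum_abs _ _)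
    _ ≤ ∑ _i : Fin n, ∑ _j : Fin n, C :=
        Finset.sum_le_sum fun i _ => Finset.sum_le_sum fun j _ => h i j
    _ = (n : ℝ) ^ 2 * C := by
        simp only [Finset.sum_const, Finset.card_univ, Fintype.card_fin, nsmul_eq_mul]
        ring

theorem sumsq_le {t : Fin n → ℝ} {C : ℝ} (h : ∀ i, |t i| ≤ C) :
    ∑ i, t i ^ 2 ≤ n * C ^ 2 := by
  calc ∑ i, t i ^ 2 ≤ ∑ _i : Fin n, C ^ 2 := Finset.sum_le_sum fun i _ => by
        rw [← sq_abs]
        exact pow_le_pow_left₀ (abs_nonneg _) (h i) 2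
    _ = n * C ^ 2 := by
        simp only [Finset.sum_const, Finset.card_univ, Fintype.card_fin, nsmul_eq_mul]

theorem slot_y (h : J W z a b) (ha : 0 ≤ a) (hb : 0 ≤ b) {s : MF n} (hs : Sb s) :
    0 ≤ (fy s).F W z ∧ (fy s).F W z ≤ 2 * (n * a ^ 2) ∧
      |(fy s).Λ W z| ≤ (n : ℝ) ^ 2 * (2 * b + a) := by
  have hD : ∀ i (f : VV n → ℝ) z, (fy s).D i f z = fderiv ℝ f z (0, Pi.single i 1) := fun i f z =>
    fy_D i f z
  have h1 : ∀ i, |(fy s).D i W z| ≤ a := fun i => by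
    rw [hD]
    refine (h.d1 _).trans ?_
    have := mul_le_mul_of_nonneg_left (nrm_y i) ha
    linarith
  have h2 : ∀ i j, |(fy s).D i ((fy s).D j W) z| ≤ b := fun i j => by
    have e : (fy s).D j W = fun z => fderiv ℝ W z (0, Pi.single j 1) := funext fun z => hD j W z
    rw [e, hD]
    refine (h.d2 _ _).trans ?_
    have h3 : ‖((0, Pi.single j 1) : VV n)‖ * ‖((0, Pi.single i 1) : VV n)‖ ≤ 1 * 1 :=
      mul_le_mul (nrm_y j) (nrm_y i) (norm_nonneg _) zero_le_one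
    have := mul_le_mul_of_nonneg_left h3 hb
    linarith
  obtain ⟨k1, k2⟩ := hs.el z.2 fun i => (fy s).D i W z
  have k3 : 0 ≤ ∑ i, (fy s).D i W z ^ 2 := Finset.sum_nonneg fun i _ => sq_nonneg _
  refine ⟨le_trans (by linarith) k1, k2.trans ?_, ?_⟩
  · have := sumsq_le h1
    linarith
  · unfold Sl.Λ
    refine sum2_le fun i j => ?_
    rw [fy_k, zero_mul, add_zero]
    refine (abs_add_le _ _).trans ?_
    rw [abs_mul, abs_mul]
    have h4 : |(fy s).s i j z| ≤ 2 := hs.b0 _ _ _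
    have h5 : |(fy s).D i ((fy s).s i j) z| ≤ 1 := by
      have h2 := Dy_snd (r := fun _ => (1 : ℝ)) (s := s) (z := z)
        (((hs.sm i j).differentiable (by simp)) z.2) i
      rw [one_mul] at h2
      have h3 : (fy s).D i ((fy s).s i j) z = pd i (fun x => s x i j) z.2 := h2
      rw [h3]
      exact hs.b1 _ _ _ _
    have h6 := mul_le_mul h4 (h2 i j) (abs_nonneg _) (by norm_num)
    have h7 := mul_le_mul h5 (h1 j) (abs_nonneg _) zero_le_one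
    linarith

theorem slot_x (h : J W z a b) (ha : 0 ≤ a) (hb : 0 ≤ b) {s : MF n} (hs : Sb s) :
    0 ≤ (fx s).F W z ∧ (fx s).F W z ≤ 2 * (n * a ^ 2) ∧
      |(fx s).Λ W z| ≤ (n : ℝ) ^ 2 * (2 * b + a) := by
  have hD : ∀ i (f : VV n → ℝ) z, (fx s).D i f z = fderiv ℝ f z (Pi.single i 1, 0) := fun i f z =>
    fx_D i f z
  have h1 : ∀ i, |(fx s).D i W z| ≤ a := fun i => by
    rw [hD]
    refine (h.d1 _).trans ?_
    have := mul_le_mul_of_nonneg_left (nrm_x i) ha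
    linarith
  have h2 : ∀ i j, |(fx s).D i ((fx s).D j W) z| ≤ b := fun i j => by
    have e : (fx s).D j W = fun z => fderiv ℝ W z (Pi.single j 1, 0) := funext fun z => hD j W z
    rw [e, hD]
    refine (h.d2 _ _).trans ?_
    have h3 : ‖((Pi.single j 1, 0) : VV n)‖ * ‖((Pi.single i 1, 0) : VV n)‖ ≤ 1 * 1 :=
      mul_le_mul (nrm_x j) (nrm_x i) (norm_nonneg _) zero_le_one
    have := mul_le_mul_of_nonneg_left h3 hb
    linarith
  obtain ⟨k1, k2⟩ := hs.el z.1 fun i => (fx s).D i W z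
  have k3 : 0 ≤ ∑ i, (fx s).D i W z ^ 2 := Finset.sum_nonneg fun i _ => sq_nonneg _
  refine ⟨le_trans (by linarith) k1, k2.trans ?_, ?_⟩
  · have := sumsq_le h1
    linarith
  · unfold Sl.Λ
    refine sum2_le fun i j => ?_
    rw [fx_k, zero_mul, add_zero]
    refine (abs_add_le _ _).trans ?_
    rw [abs_mul, abs_mul]
    have h4 : |(fx s).s i j z| ≤ 2 := hs.b0 _ _ _
    have h5 : |(fx s).D i ((fx s).s i j) z| ≤ 1 := by
      have h2 := Dx_fst (r := fun _ => (1 : ℝ)) (s := s) (z := z)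
        (((hs.sm i j).differentiable (by simp)) z.1) i
      rw [one_mul] at h2
      have h3 : (fx s).D i ((fx s).s i j) z = pd i (fun x => s x i j) z.1 := h2
      rw [h3]
      exact hs.b1 _ _ _ _
    have h6 := mul_le_mul h4 (h2 i j) (abs_nonneg _) (by norm_num)
    have h7 := mul_le_mul h5 (h1 j) (abs_nonneg _) zero_le_one
    linarith

end slots

/-! ## The weight near a near pair -/

section near

open Vale.Agent.P088.R2.H281.A (FinOk WinC evWin)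

theorem ar1 {N E m : ℝ} (hE : 0 ≤ E) : N ^ 2 + E * m ≤ N ^ 2 + E * (1 + m) := by
  rw [mul_add]
  linarith

theorem ar2 {N E m : ℝ} (hN : 1 ≤ N) (hE : 0 ≤ E) (hm : 0 ≤ m) :
    N + E ≤ N ^ 2 + E * (1 + m) := by
  have h1 := mul_nonneg hE hm
  have h2 : N ≤ N ^ 2 := by nlinarith
  rw [mul_add]
  linarith

theorem lev_le (hw : WinC q) (h : PkOk q d) {z : VV n} (hf : FinOk q d z) :
    d.l z.1 ≤ d.l₀ q + 12 / 5 * q.R ∧ d.l z.2 ≤ d.l₀ q + 12 / 5 * q.R :=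
  ⟨((H404.INF.lvG hw.inf h).l12 _).1 hf.near.g1, ((H404.INF.lvG hw.inf h).l12 _).1 hf.near.g2⟩

/-- Near a point of a finite leaf the weight is `WW`. -/
theorem W_ev (hw : WinC q) (h : PkOk q d) {z : VV n} (hf : FinOk q d z) :
    d.W q =ᶠ[𝓝 z] WW (d.F q) d.l (gi d.s₁) := by
  obtain ⟨h1, h2⟩ := lev_le hw h hf
  have hR : 0 < q.R := by linarith [hw.R1]
  have c1 : Continuous fun w : VV n => d.l w.1 := h.lev.sm.continuous.comp continuous_fst
  have c2 : Continuous fun w : VV n => d.l w.2 := h.lev.sm.continuous.comp continuous_snd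
  have e1 : {w : VV n | d.l w.1 < d.l₀ q + 26 / 10 * q.R} ∈ 𝓝 z :=
    (isOpen_lt c1 continuous_const).mem_nhds (by show d.l z.1 < _; linarith)
  have e2 : {w : VV n | d.l w.2 < d.l₀ q + 26 / 10 * q.R} ∈ 𝓝 z :=
    (isOpen_lt c2 continuous_const).mem_nhds (by show d.l z.2 < _; linarith)
  filter_upwards [e1, e2] with w w1 w2
  have w1' : d.l w.1 < d.l₀ q + 26 / 10 * q.R := w1
  have w2' : d.l w.2 < d.l₀ q + 26 / 10 * q.R := w2
  unfold Pk.W WT
  rw [h.ret.id w.1 (by linarith), h.ret.id w.2 (by linarith), h.Θ0 _ w1'.le, h.Θ0 _ w2'.le,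
    add_zero, add_zero]

theorem nrm_le_sqrt (v : V n) : ‖v‖ ≤ √(HY.sq v) := by
  rw [pi_norm_le_iff_of_nonneg (Real.sqrt_nonneg _)]
  intro i
  have h2 : v i ^ 2 ≤ HY.sq v := by
    unfold HY.sq
    exact Finset.single_le_sum (f := fun i => v i ^ 2) (fun j _ => sq_nonneg _)
      (Finset.mem_univ i)
  rw [Real.norm_eq_abs, ← Real.sqrt_sq_eq_abs]
  exact Real.sqrt_le_sqrt h2

/-- The norms. -/
theorem nrm_z (hw : WinC q) {z : VV n} (hf : FinOk q d z)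
    (h5 : HY.sq z.1 ≤ 5 * q.R ^ 2 ∨ HY.sq z.2 ≤ 5 * q.R ^ 2) :
    ‖z.1‖ ≤ 4 / q.σ * q.R ∧ ‖z.2‖ ≤ 4 / q.σ * q.R := by
  have hR : 0 < q.R := by linarith [hw.R1]
  have hk := hw.inf.κ1
  have hk0 := hw.inf.κ0
  have hd : ‖z.1 - z.2‖ ≤ q.R := by
    refine (nrm_le_sqrt _).trans (hf.near.q.trans ?_)
    nlinarith
  have h3 : ∀ v : V n, HY.sq v ≤ 5 * q.R ^ 2 → ‖v‖ ≤ 3 * q.R := fun v hv => by
    refine (nrm_le_sqrt v).trans ?_
    rw [Real.sqrt_le_left (by positivity)]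
    nlinarith [sq_nonneg q.R]
  have hs : 4 * q.R ≤ 4 / q.σ * q.R := by
    have : 4 ≤ 4 / q.σ := by
      rw [le_div_iff₀ hw.inf.σ0]
      linarith [hw.inf.σ1]
    exact mul_le_mul_of_nonneg_right this hR.le
  have t1 : ‖z.1‖ ≤ ‖z.1 - z.2‖ + ‖z.2‖ := by
    have := norm_add_le (z.1 - z.2) z.2
    rwa [sub_add_cancel] at this
  have t2 : ‖z.2‖ ≤ ‖z.1 - z.2‖ + ‖z.1‖ := by
    have := norm_add_le (z.2 - z.1) z.1
    rw [sub_add_cancel, norm_sub_rev] at this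
    exact this
  rcases h5 with h | h
  · have := h3 _ h
    constructor <;> linarith
  · have := h3 _ h
    constructor <;> linarith

/-- **The first and second derivatives of the weight at a near pair.** -/
theorem J_near (hw : WinC q) (hq : FwQ n q) (h : PkOk q d) {z : VV n} (hf : FinOk q d z)
    (hr : d.r2 z ≤ 4) (h5 : HY.sq z.1 ≤ 5 * q.R ^ 2 ∨ HY.sq z.2 ≤ 5 * q.R ^ 2) :
    J (d.W q) z (fwC n q * (d.N q z + d.E q z * √(d.r2 z))) (fwC n q * (d.N q z + d.E q z)) := by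
  obtain ⟨n1, n2⟩ := nrm_z hw hf h5
  exact (hq.near h (by linarith [hw.M1]) n1 n2 hr).congr (W_ev hw h hf)

end near

/-! ## The upper bounds -/

section up

open Vale.Agent.P088.R2.H281.A (FinOk WinC evWin)

/-- The constant of the upper bounds. -/
def CU (n : ℕ) (q : Cst) : ℝ := 8 * ((n : ℝ) + 1) ^ 2 * fwC n q ^ 2

theorem CU_NoM (n : ℕ) : NoM (CU n) := fun _ _ _ _ _ _ => rfl

theorem CU_ge (hq : FwQ n q) : 8 ≤ CU n q := by
  have h1 := hq.C1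
  have h2 : 1 ≤ fwC n q ^ 2 := one_le_pow₀ h1
  have h3 : (1 : ℝ) ≤ ((n : ℝ) + 1) ^ 2 := one_le_pow₀ (by
    have : (0 : ℝ) ≤ n := Nat.cast_nonneg n
    linarith)
  unfold CU
  nlinarith

theorem up_ar {m N E r C F L : ℝ} (hC : 1 ≤ C) (hN : 0 ≤ N) (hE : 0 ≤ E) (hr : 0 ≤ r) (hr1 : r ≤ 1)
    (hF : F ≤ 2 * (n * (C * (N + E * r)) ^ 2)) (hm : m = E * r ^ 2)
    (hL : L ≤ (n : ℝ) ^ 2 * (2 * (C * (N + E)) + C * (N + E * r))) :
    F ≤ 8 * ((n : ℝ) + 1) ^ 2 * C ^ 2 * (N ^ 2 + E * m) ∧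
      L ≤ 8 * ((n : ℝ) + 1) ^ 2 * C ^ 2 * (N + E) := by
  have n0 : (0 : ℝ) ≤ n := Nat.cast_nonneg n
  have hC2 : C ≤ C ^ 2 := by nlinarith
  constructor
  · have h1 : (N + E * r) ^ 2 ≤ 2 * (N ^ 2 + E * m) := by
      rw [hm]
      nlinarith [sq_nonneg (N - E * r)]
    have h2 : 2 * (n * (C * (N + E * r)) ^ 2) ≤ 2 * (n * (C ^ 2 * (2 * (N ^ 2 + E * m)))) := by
      have : (C * (N + E * r)) ^ 2 ≤ C ^ 2 * (2 * (N ^ 2 + E * m)) := by
        rw [mul_pow]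
        exact mul_le_mul_of_nonneg_left h1 (sq_nonneg _)
      gcongr
    have h3 : 0 ≤ C ^ 2 * (N ^ 2 + E * m) := by
      rw [hm]
      positivity
    have h4 : 4 * (n : ℝ) ≤ 8 * ((n : ℝ) + 1) ^ 2 := by nlinarith
    have h5 := mul_le_mul_of_nonneg_right h4 h3
    calc F ≤ 2 * (n * (C ^ 2 * (2 * (N ^ 2 + E * m)))) := hF.trans h2
      _ = 4 * n * (C ^ 2 * (N ^ 2 + E * m)) := by ring
      _ ≤ 8 * ((n : ℝ) + 1) ^ 2 * (C ^ 2 * (N ^ 2 + E * m)) := h5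
      _ = _ := by ring
  · have h1 : E * r ≤ E := mul_le_of_le_one_right hE hr1
    have h2 : 2 * (C * (N + E)) + C * (N + E * r) ≤ 3 * C * (N + E) := by nlinarith
    have h3 : (n : ℝ) ^ 2 * (2 * (C * (N + E)) + C * (N + E * r)) ≤
        (n : ℝ) ^ 2 * (3 * C * (N + E)) := mul_le_mul_of_nonneg_left h2 (sq_nonneg _)
    have h4 : 3 * C * (N + E) ≤ 3 * C ^ 2 * (N + E) := by
      have : 0 ≤ N + E := by linarith
      nlinarith
    have h5 : (n : ℝ) ^ 2 * (3 * C * (N + E)) ≤ (n : ℝ) ^ 2 * (3 * C ^ 2 * (N + E)) :=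
      mul_le_mul_of_nonneg_left h4 (sq_nonneg _)
    have h6 : 0 ≤ C ^ 2 * (N + E) := by
      have : 0 ≤ N + E := by linarith
      positivity
    have h7 : 3 * (n : ℝ) ^ 2 ≤ 8 * ((n : ℝ) + 1) ^ 2 := by nlinarith
    have h8 := mul_le_mul_of_nonneg_right h7 h6
    calc L ≤ (n : ℝ) ^ 2 * (3 * C ^ 2 * (N + E)) := hL.trans (h3.trans h5)
      _ = 3 * (n : ℝ) ^ 2 * (C ^ 2 * (N + E)) := by ring
      _ ≤ 8 * ((n : ℝ) + 1) ^ 2 * (C ^ 2 * (N + E)) := h8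
      _ = _ := by ring

/-- **The upper bounds.** -/
theorem up (hw : WinC q) (hq : FwQ n q) (h : PkOk q d) {z : VV n} (hf : FinOk q d z)
    (h0 : 0 ≤ d.r2 z) (hr : d.r2 z ≤ 1) :
    (∀ {s : MF n}, Sb s → HY.sq z.2 ≤ 5 * q.R ^ 2 →
      (fy s).F (d.W q) z ≤ CU n q * (d.N q z ^ 2 + d.E q z * d.m q z) ∧
      |(fy s).Λ (d.W q) z| ≤ CU n q * (d.N q z + d.E q z)) ∧
    ∀ {s : MF n}, Sb s → HY.sq z.1 ≤ 5 * q.R ^ 2 →
      (fx s).F (d.W q) z ≤ CU n q * (d.N q z ^ 2 + d.E q z * d.m q z) ∧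
      |(fx s).Λ (d.W q) z| ≤ CU n q * (d.N q z + d.E q z) := by
  have hM : 0 ≤ q.M₀ := by linarith [hw.M1]
  have hN : 0 ≤ d.N q z := FwQ.N0 h hM _
  have hE : 0 ≤ d.E q z := (Real.exp_pos _).le
  have hr0 := Real.sqrt_nonneg (d.r2 z)
  have hr1 : √(d.r2 z) ≤ 1 := by
    rw [Real.sqrt_le_left zero_le_one]
    linarith
  have hC := hq.C1
  have hC0 : 0 ≤ fwC n q := by linarith
  have hm : d.m q z = d.E q z * √(d.r2 z) ^ 2 := by
    rw [Real.sq_sqrt h0]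
    rfl
  have ha : 0 ≤ fwC n q * (d.N q z + d.E q z * √(d.r2 z)) := by positivity
  have hb : 0 ≤ fwC n q * (d.N q z + d.E q z) := by positivity
  constructor
  · intro s hs h5
    have j := J_near hw hq h hf (by linarith) (Or.inr h5)
    obtain ⟨-, j1, j2⟩ := slot_y j ha hb hs
    exact up_ar hC hN hE hr0 hr1 j1 hm j2
  · intro s hs h5
    have j := J_near hw hq h hf (by linarith) (Or.inl h5)
    obtain ⟨-, j1, j2⟩ := slot_x j ha hb hs
    exact up_ar hC hN hE hr0 hr1 j1 hm j2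

end up

/-! ## The core -/

section core

open Vale.Agent.P088.R2.H281.A (FinOk WinC evWin)

/-- The numbers of the core. -/
theorem nB (hσ : 0 < q.σ) (hCB : 0 < q.CB) (hR : 0 < q.R) (hM : 1 ≤ q.M₀) (hΛ : 0 ≤ q.Λ)
    (hΛM : (1 + 2 * q.Λ) ^ 2 ≤ q.M₀) {z : VV n} (k : NkN q d .zB z) (h0 : 0 ≤ d.r2 z) :
    1 ≤ d.E q z ∧ 0 ≤ d.m q z ∧ 1 ≤ d.N q z ∧ d.N q z ^ 2 ≤ d.E q z ∧ 1 + d.m q z ≤ d.E q z ∧
      (d.N q z + 1 + d.m q z) ^ 2 ≤ (6 + 12 * q.Λ ^ 2) * d.E q z := by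
  have hN : 1 ≤ d.N q z := hM.trans k.M0
  have hB := k.B (Or.inl rfl)
  have h2 : d.N q z ^ 2 ≤ d.E q z := by
    refine le_trans ?_ hB
    rw [← Real.rpow_natCast]
    exact Real.rpow_le_rpow_of_exponent_le hN (by norm_num)
  have hE : 1 ≤ d.E q z := le_trans (by nlinarith) h2
  have hu : 0 ≤ d.u q z := by
    have : Real.exp 0 ≤ Real.exp (d.u q z) := by
      rw [Real.exp_zero]
      exact hE
    exact Real.exp_le_exp.1 this
  have hm : 0 ≤ d.m q z := mul_nonneg (by linarith) h0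
  have ht := k.tB rfl
  have hc : 0 ≤ q.σ / (q.CB * q.R) := by positivity
  have h1 : d.m₁ q (d.u q z) ≤ Real.exp (26 / 100 * d.u q z) :=
    H932.EP.m1x_le hc (d.ξ_is q) _
  obtain ⟨x, hx⟩ : ∃ x, x = Real.exp (26 / 100 * d.u q z) := ⟨_, rfl⟩
  rw [← hx] at h1
  have hx1 : 1 ≤ x := by
    rw [hx]
    exact Real.one_le_exp (by positivity)
  have hx2 : x ^ 2 ≤ d.E q z := by
    rw [hx, ← Real.exp_nat_mul]
    refine Real.exp_le_exp.2 ?_
    push_cast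
    linarith
  have hmx : d.m q z ≤ 2 * q.Λ * x := ht.trans (mul_le_mul_of_nonneg_left h1 (by positivity))
  have hME : q.M₀ ≤ d.E q z := by
    have := k.M0
    nlinarith
  have h5 : (1 + 2 * q.Λ) * x ≤ d.E q z := by
    have h6 : ((1 + 2 * q.Λ) * x) ^ 2 ≤ d.E q z ^ 2 := by
      rw [mul_pow, sq (d.E q z)]
      exact mul_le_mul (hΛM.trans hME) hx2 (sq_nonneg _) (by linarith)
    exact (abs_le_of_sq_le_sq' h6 (by linarith)).2
  refine ⟨hE, hm, hN, h2, ?_, ?_⟩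
  · nlinarith
  · have h7 : d.m q z ^ 2 ≤ 4 * q.Λ ^ 2 * d.E q z := by
      have h8 : d.m q z ^ 2 ≤ (2 * q.Λ * x) ^ 2 := pow_le_pow_left₀ hm hmx 2
      have h9 : (2 * q.Λ * x) ^ 2 = 4 * q.Λ ^ 2 * x ^ 2 := by ring
      rw [h9] at h8
      exact h8.trans (mul_le_mul_of_nonneg_left hx2 (by positivity))
    have h10 : (d.N q z + 1 + d.m q z) ^ 2 ≤ 3 * (d.N q z ^ 2 + 1 + d.m q z ^ 2) := by
      nlinarith [sq_nonneg (d.N q z - 1), sq_nonneg (d.N q z - d.m q z), sq_nonneg (1 - d.m q z)]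
    nlinarith

/-- The constant of the core. -/
def CB' (n : ℕ) (q : Cst) : ℝ := CU n q + (6 + 12 * q.Λ ^ 2)

/-- The gain of the core. -/
def gB (n : ℕ) (c : Cst → ℝ) (q : Cst) : ℝ := 2 * c q / (5 * CB' n q ^ 2)

theorem gB_NoM {c : Cst → ℝ} (hc : NoM c) : NoM (gB n c) := by
  intro q kv ε η Ck R
  unfold gB
  rw [hc q kv ε η Ck R]
  rfl

/-- **The gain row of the core.** -/
theorem gl_zB (hn : 1 ≤ n) {M : Fam n} {k : Cst → Pk n → VV n → ℝ} {c : Cst → ℝ}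
    (hc : ∀ q, 0 < c q) (hM : ∀ q d, M q d .zB = H165.Tab.MB (nu k q d) (c q)) :
    RowGL M .zB (gB n c) := by
  have hL : EvC fun q => (1 + 2 * q.Λ) ^ 2 ≤ q.M₀ :=
    H606.EP.ev_M₀ (fun q => (1 + 2 * q.Λ) ^ 2) fun _ => rfl
  refine ((((evNkN n).and evWin).and (EvC.fwQ hn)).and (((ev_sb n).and hL).and
    ((H606.EP.evLm hn).and (EvC.pos.and (H932.EP.evNr n))))).mono ?_
  rintro q ⟨⟨⟨hk, hw⟩, hq⟩, ⟨hs, hLM⟩, lm, hp, nr⟩
  have hCU := CU_ge hq
  have hCB : 1 ≤ CB' n q := by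
    unfold CB'
    have := sq_nonneg q.Λ
    linarith
  have hC0 : 0 < CB' n q := by linarith
  have hg : 0 < gB n c q := by
    unfold gB
    have := hc q
    positivity
  have hR : 1 ≤ q.R := by linarith [hw.R1]
  have hi : (q.R ^ 2)⁻¹ ≤ 1 := inv_le_one_of_one_le₀ (by nlinarith)
  have hi0 : 0 < (q.R ^ 2)⁻¹ := by positivity
  refine ⟨hg, fun d ok z hz => ?_⟩
  obtain ⟨s1, s2⟩ := hs d ok
  have K := hk d ok .zB (Or.inr (Or.inr (Or.inl rfl))) z hz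
  have hr0 : 0 ≤ d.r2 z := by
    have := (nr.rb d ok z).1
    show 0 ≤ 2 * rq (gi d.s₁) z
    linarith
  have hc1 : q.c₀ ≤ 1 / 8 := lm.c1
  have hc0 := lm.c0
  have hr1 : d.r2 z ≤ 1 := by
    have := K.r
    nlinarith
  have hΛ : 0 ≤ q.Λ := (Real.exp_pos _).le
  obtain ⟨hE, hm, hN, hN2, hmE, hNE⟩ := nB lm.σ0 (by linarith [nr.CB1]) (by linarith) hw.M1 hΛ hLM
    K hr0
  obtain ⟨uy, ux⟩ := up hw hq ok K.fin hr0 hr1
  have f1 : 0 ≤ d.sx.F (d.W q) z := by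
    have k1 := (s1.el z.1 fun i => (fx d.s₁).D i (d.W q) z).1
    have k3 : 0 ≤ ∑ i, (fx d.s₁).D i (d.W q) z ^ 2 := Finset.sum_nonneg fun i _ => sq_nonneg _
    exact le_trans (by linarith) k1
  have f2 : 0 ≤ d.sy.F (d.W q) z := by
    have k1 := (s2.el z.2 fun i => (fy d.s₂).D i (d.W q) z).1
    have k3 : 0 ≤ ∑ i, (fy d.s₂).D i (d.W q) z ^ 2 := Finset.sum_nonneg fun i _ => sq_nonneg _
    exact le_trans (by linarith) k1
  have hb : gB n c q * (q.R ^ 2)⁻¹ * (5 * CB' n q ^ 2) ≤ 2 * c q := by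
    have e1 : gB n c q * (5 * CB' n q ^ 2) = 2 * c q := by
      unfold gB
      field_simp
    calc _ = gB n c q * (5 * CB' n q ^ 2) * (q.R ^ 2)⁻¹ := by ring
      _ ≤ gB n c q * (5 * CB' n q ^ 2) * 1 := mul_le_mul_of_nonneg_left hi (by positivity)
      _ = _ := by rw [mul_one, e1]
  have X0 : 0 ≤ d.N q z ^ 2 + d.E q z * (1 + d.m q z) := by positivity
  have hNE' : (d.N q z + 1 + d.m q z) ^ 2 ≤ CB' n q * d.E q z := by
    refine hNE.trans (mul_le_mul_of_nonneg_right ?_ (by linarith))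
    unfold CB'
    linarith
  have key : ∀ F L : ℝ, F ≤ CB' n q * (d.N q z ^ 2 + d.E q z * (1 + d.m q z)) →
      L ≤ CB' n q * (d.N q z ^ 2 + d.E q z * (1 + d.m q z)) →
      gB n c q * (q.R ^ 2)⁻¹ * (F + L + 1) ≤ lw (M q d .zB) z := fun F L hF hL => by
    rw [hM]
    exact g_MB (ν := nu k q d) (hc q) hE hm (by linarith : 0 ≤ d.N q z) (by positivity) hCB hF hL
      hmE hNE' f1 f2 hb
  have kk : ∀ F L : ℝ, F ≤ CU n q * (d.N q z ^ 2 + d.E q z * d.m q z) →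
      L ≤ CU n q * (d.N q z + d.E q z) →
      gB n c q * (q.R ^ 2)⁻¹ * (F + L + 1) ≤ lw (M q d .zB) z := fun F L hF hL => by
    have c1 : CU n q ≤ CB' n q := by
      unfold CB'
      have := sq_nonneg q.Λ
      linarith
    have hE0 : 0 ≤ d.E q z := by linarith only [hE]
    have hN0 : 0 ≤ d.N q z := by linarith only [hN]
    exact key F L (hF.trans (mul_le_mul c1 (ar1 hE0)
      (add_nonneg (sq_nonneg _) (mul_nonneg hE0 hm)) hC0.le))
      (hL.trans (mul_le_mul c1 (ar2 hN hE0 hm) (add_nonneg hN0 hE0) hC0.le))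
  refine ⟨fun h5 => ?_, fun h5 => ?_, ?_⟩
  · obtain ⟨a1, a2⟩ := uy s2 h5
    exact kk _ _ a1 a2
  · obtain ⟨a1, a2⟩ := ux s1 h5
    exact kk _ _ a1 a2
  · have := key 0 0 (by positivity) (by positivity)
    simpa using this

end core

/-! ## Zone II, the part `z2b` -/

section two

open Vale.Agent.P088.R2.H281.A (FinOk WinC evWin)

/-- Zone II: `F, L ≤ C f`, `1 ≤ C f`, `f ≤ C F₁`, `f ≤ C F₂`, `k ≥ κ`. -/
theorem g_MII' {E : Type*} [NormedAddCommGroup E] [NormedSpace ℝ E] {ν : H165.Tab.Nu E}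
    {b F L C f κ : ℝ} {z : E} (hb : 0 ≤ b) (hC : 1 ≤ C) (hκ : 0 ≤ κ) (hk : κ ≤ ν.k z)
    (hF : F ≤ C * f) (hL : L ≤ C * f) (h1 : 1 ≤ C * f) (f1 : f ≤ C * ν.F₁ z)
    (f2 : f ≤ C * ν.F₂ z) (h : b * (12 * C ^ 2) ≤ κ) :
    b * (F + L + 1) ≤ lw (H165.Tab.MII ν) z := by
  have hC0 : 0 < C := by linarith
  have hf : 0 < f := by
    by_contra hc
    have : C * f ≤ 0 := mul_nonpos_of_nonneg_of_nonpos hC0.le (not_lt.1 hc)
    linarith
  have F10 : 0 ≤ ν.F₁ z := by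
    by_contra hc
    have : C * ν.F₁ z ≤ 0 := mul_nonpos_of_nonneg_of_nonpos hC0.le (not_le.1 hc).le
    linarith
  have F20 : 0 ≤ ν.F₂ z := by
    by_contra hc
    have : C * ν.F₂ z ≤ 0 := mul_nonpos_of_nonneg_of_nonpos hC0.le (not_le.1 hc).le
    linarith
  have e1 : lw (H165.Tab.MII ν) z = min (1 / 4 * (ν.k z * ν.F₁ z)) (1 / 4 * (ν.k z * ν.F₂ z)) +
      2 * min (ν.En z ^ 2) 0 := rfl
  have e2 : min (ν.En z ^ 2) 0 = 0 := min_eq_right (sq_nonneg _)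
  rw [e1, e2, mul_zero, add_zero]
  have x1 : F + L + 1 ≤ 3 * C * f := by linarith
  have x2 : b * (F + L + 1) ≤ b * (3 * C * f) := mul_le_mul_of_nonneg_left x1 hb
  have key : ∀ G : ℝ, 0 ≤ G → f ≤ C * G → b * (3 * C * f) ≤ 1 / 4 * (ν.k z * G) := by
    intro G hG hfG
    have y1 : b * (3 * C * f) ≤ b * (3 * C * (C * G)) := by gcongr
    have y2 : b * (3 * C * (C * G)) = b * (12 * C ^ 2) * (G / 4) := by ring
    have y3 : b * (12 * C ^ 2) * (G / 4) ≤ κ * (G / 4) :=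
      mul_le_mul_of_nonneg_right h (by positivity)
    have y4 : κ * (G / 4) ≤ ν.k z * (G / 4) := mul_le_mul_of_nonneg_right hk (by positivity)
    linarith
  exact x2.trans (le_min (key _ F10 f1) (key _ F20 f2))

/-- The constant of zone II. -/
def C2 (n : ℕ) (A : Cst → ℝ) (q : Cst) : ℝ := 2 * CU n q + A q

/-- The gain of zone II. -/
def g2 (n : ℕ) (A κ : Cst → ℝ) (q : Cst) : ℝ := κ q / (12 * C2 n A q ^ 2)

theorem g2_NoM {A κ : Cst → ℝ} (hA : NoM A) (hκ : NoM κ) : NoM (g2 n A κ) := by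
  intro q kv ε η Ck R
  unfold g2 C2
  rw [hA q kv ε η Ck R, hκ q kv ε η Ck R, CU_NoM n q kv ε η Ck R]

/-- The lower bound of the forms on the leaf `k`. -/
def LowF (n : ℕ) (k : Zo) (A : Cst → ℝ) : Prop := EvC fun q => ∀ d : Pk n, PkOk q d → ∀ z,
  d.ch q k z ≠ 0 → d.E q z * d.m q z ≤ A q * d.sx.F (d.W q) z ∧
    d.E q z * d.m q z ≤ A q * d.sy.F (d.W q) z

/-- The lower bound of the convexity weight on the leaf `k`. -/
def LowK (n : ℕ) (k : Zo) (kz : Cst → Pk n → VV n → ℝ) (κ : Cst → ℝ) : Prop :=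
  EvC fun q => ∀ d : Pk n, PkOk q d → ∀ z, d.ch q k z ≠ 0 → κ q / q.R ≤ kz q d z

/-- **The gain row of zone II** (`z2a`, `z2b`). -/
theorem gl_z2 (hn : 1 ≤ n) {k : Zo} (hk2 : k = .z2a ∨ k = .z2b) {M : Fam n}
    {kz : Cst → Pk n → VV n → ℝ} {A κ : Cst → ℝ} (hκ : ∀ q, 0 < κ q)
    (hA0 : ∀ q, 0 ≤ A q) (hM : ∀ q d, M q d k = H165.Tab.MII (nu kz q d))
    (hlF : LowF n k A) (hlK : LowK n k kz κ) : RowGL M k (g2 n A κ) := by
  refine ((((evNkN n).and evWin).and (EvC.fwQ hn)).and (((ev_sb n).and (hlF.and hlK)).and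
    ((H606.EP.evZn hn one_pos (fun _ => 1) (fun _ => rfl) fun _ => le_rfl).and
      (H932.EP.evNr n)))).mono ?_
  rintro q ⟨⟨⟨hk, hw⟩, hq⟩, ⟨hs, hF, hK⟩, zn, nr⟩
  have hCU := CU_ge hq
  have hC2 : 1 ≤ C2 n A q := by
    unfold C2
    have := hA0 q
    linarith
  have hC0 : 0 < C2 n A q := by linarith
  have hg : 0 < g2 n A κ q := by
    unfold g2
    have := hκ q
    positivity
  have hR : 1 ≤ q.R := by linarith [hw.R1]
  have hR0 : 0 < q.R := by linarith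
  refine ⟨hg, fun d ok z hz => ?_⟩
  obtain ⟨s1, s2⟩ := hs d ok
  have hNz : Nz k := by
    rcases hk2 with rfl | rfl
    · exact Or.inr (Or.inl rfl)
    · exact Or.inr (Or.inr (Or.inr rfl))
  have K := hk d ok k hNz z hz
  have hZ2 : H606.EP.Z2 q d z := by
    rcases hk2 with rfl | rfl
    · exact Or.inl hz
    · exact Or.inr hz
  have al := H606.EP.al ok zn hZ2
  have hr0 : 0 ≤ d.r2 z := al.r0.le
  have hc1 : q.c₀ ≤ 1 / 8 := zn.c1
  have hc0 := zn.c0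
  have hr1 : d.r2 z ≤ 1 := by
    have := K.r
    nlinarith
  have hN : 1 ≤ d.N q z := hw.M1.trans K.M0
  have hu := al.u0
  have hE : 1 ≤ d.E q z := Real.one_le_exp hu
  have hm : 1 ≤ d.m q z := al.mX
  have hNE : d.N q z ^ 2 ≤ d.E q z * d.m q z := by
    have := al.NE
    linarith
  obtain ⟨uy, ux⟩ := up hw hq ok K.fin hr0 hr1
  have hEm : d.E q z ≤ d.E q z * d.m q z := le_mul_of_one_le_right (by linarith) hm
  have hEm1 : 1 ≤ d.E q z * d.m q z := hE.trans hEm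
  have hi : (q.R ^ 2)⁻¹ ≤ q.R⁻¹ := by
    apply inv_anti₀ hR0
    nlinarith
  have hb : g2 n A κ q * (q.R ^ 2)⁻¹ * (12 * C2 n A q ^ 2) ≤ κ q / q.R := by
    have e1 : g2 n A κ q * (12 * C2 n A q ^ 2) = κ q := by
      unfold g2
      field_simp
    calc _ = g2 n A κ q * (12 * C2 n A q ^ 2) * (q.R ^ 2)⁻¹ := by ring
      _ = κ q * (q.R ^ 2)⁻¹ := by rw [e1]
      _ ≤ κ q * q.R⁻¹ := mul_le_mul_of_nonneg_left hi (hκ q).le
      _ = _ := by rw [div_eq_mul_inv]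
  obtain ⟨f1, f2⟩ := hF d ok z hz
  have hkz := hK d ok z hz
  have hAC : A q ≤ C2 n A q := by
    unfold C2
    linarith
  have F1 : 0 ≤ d.sx.F (d.W q) z := by
    have k1 := (s1.el z.1 fun i => (fx d.s₁).D i (d.W q) z).1
    have k3 : 0 ≤ ∑ i, (fx d.s₁).D i (d.W q) z ^ 2 := Finset.sum_nonneg fun i _ => sq_nonneg _
    exact le_trans (by linarith) k1
  have F2 : 0 ≤ d.sy.F (d.W q) z := by
    have k1 := (s2.el z.2 fun i => (fy d.s₂).D i (d.W q) z).1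
    have k3 : 0 ≤ ∑ i, (fy d.s₂).D i (d.W q) z ^ 2 := Finset.sum_nonneg fun i _ => sq_nonneg _
    exact le_trans (by linarith) k1
  have key : ∀ F L : ℝ, F ≤ C2 n A q * (d.E q z * d.m q z) → L ≤ C2 n A q * (d.E q z * d.m q z) →
      g2 n A κ q * (q.R ^ 2)⁻¹ * (F + L + 1) ≤ lw (M q d k) z := fun F L hF hL => by
    rw [hM]
    refine g_MII' (ν := nu kz q d) (by positivity) hC2 (div_nonneg (hκ q).le hR0.le) hkz hF hL ?_
      (f1.trans (mul_le_mul_of_nonneg_right hAC F1)) (f2.trans (mul_le_mul_of_nonneg_right hAC F2))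
      hb
    calc (1 : ℝ) = 1 * 1 := by ring
      _ ≤ C2 n A q * (d.E q z * d.m q z) := mul_le_mul hC2 hEm1 zero_le_one hC0.le
  have kk : ∀ F L : ℝ, F ≤ CU n q * (d.N q z ^ 2 + d.E q z * d.m q z) →
      L ≤ CU n q * (d.N q z + d.E q z) →
      g2 n A κ q * (q.R ^ 2)⁻¹ * (F + L + 1) ≤ lw (M q d k) z := fun F L hF hL => by
    have hA := hA0 q
    have c1 : CU n q * (d.N q z ^ 2 + d.E q z * d.m q z) ≤
        C2 n A q * (d.E q z * d.m q z) := by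
      have e1 : d.N q z ^ 2 + d.E q z * d.m q z ≤ 2 * (d.E q z * d.m q z) := by linarith only [hNE]
      have e2 : CU n q * (d.N q z ^ 2 + d.E q z * d.m q z) ≤ CU n q * (2 * (d.E q z * d.m q z)) :=
        mul_le_mul_of_nonneg_left e1 (by linarith only [hCU])
      have e3 : 0 ≤ A q * (d.E q z * d.m q z) := mul_nonneg hA (by linarith only [hEm1])
      unfold C2
      rw [add_mul]
      linarith only [e2, e3]
    have c2 : CU n q * (d.N q z + d.E q z) ≤ C2 n A q * (d.E q z * d.m q z) := by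
      have e0 : d.N q z ≤ d.N q z ^ 2 := by nlinarith only [hN]
      have e1 : d.N q z + d.E q z ≤ 2 * (d.E q z * d.m q z) := by linarith only [hNE, e0, hEm]
      have e2 : CU n q * (d.N q z + d.E q z) ≤ CU n q * (2 * (d.E q z * d.m q z)) :=
        mul_le_mul_of_nonneg_left e1 (by linarith only [hCU])
      have e3 : 0 ≤ A q * (d.E q z * d.m q z) := mul_nonneg hA (by linarith only [hEm1])
      unfold C2
      rw [add_mul]
      linarith only [e2, e3]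
    exact key F L (hF.trans c1) (hL.trans c2)
  refine ⟨fun h5 => ?_, fun h5 => ?_, ?_⟩
  · obtain ⟨a1, a2⟩ := uy s2 h5
    exact kk _ _ a1 a2
  · obtain ⟨a1, a2⟩ := ux s1 h5
    exact kk _ _ a1 a2
  · have h0 : 0 ≤ C2 n A q * (d.E q z * d.m q z) := mul_nonneg hC0.le (by linarith)
    have := key 0 0 h0 h0
    simpa using this

end two

/-! ## The rows for the letters `Mz L` -/

section letters

variable {L : Lc n}

theorem noM_ηc {f : Cst → ℝ} (h : NB_ηc f) : NoM f := fun q kv ε η Ck R => by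
  have h1 := h { q with kv := kv, ε := ε, η := η, Ck := Ck, R := R }
  have h2 := h q
  rw [← h1, ← h2]
  rfl

/-- **The gain row of the core.** -/
theorem gl_zB_L (hn : 1 ≤ n) (hL : L.Ok) :
    NoM (gB n L.cB) ∧ RowGL (Mz L) .zB (gB n L.cB) :=
  ⟨gB_NoM (noM_ηc hL.cB.2), gl_zB hn hL.cB.1 (k := L.kz) fun _ _ => rfl⟩

/-- The gain row of zone II, with constants which are positive only eventually. -/
theorem gl_z2_ex (hn : 1 ≤ n) {k : Zo} (hk2 : k = .z2a ∨ k = .z2b) {M : Fam n}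
    {kz : Cst → Pk n → VV n → ℝ} {c κ : Cst → ℝ} (hc : NoM c) (hκ : NoM κ)
    (hM : ∀ q d, M q d k = H165.Tab.MII (nu kz q d))
    (hF : EvC fun q => 0 < c q ∧ ∀ d : Pk n, PkOk q d → ∀ z, d.ch q k z ≠ 0 →
      c q * (d.E q z * d.m q z) ≤ d.sx.F (d.W q) z ∧ c q * (d.E q z * d.m q z) ≤ d.sy.F (d.W q) z)
    (hK : EvC fun q => 0 < κ q ∧ ∀ d : Pk n, PkOk q d → ∀ z, d.ch q k z ≠ 0 →
      κ q / q.R ≤ kz q d z) : ∃ g : Cst → ℝ, NoM g ∧ RowGL M k g := by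
  classical
  obtain ⟨A, hA⟩ : ∃ A : Cst → ℝ, A = fun q => |c q|⁻¹ := ⟨_, rfl⟩
  obtain ⟨κ', hκ'⟩ : ∃ κ' : Cst → ℝ, κ' = fun q => if 0 < κ q then κ q else 1 := ⟨_, rfl⟩
  have nA : NoM A := fun q kv ε η Ck R => by
    rw [hA]
    simp only [hc q kv ε η Ck R]
  have nκ : NoM κ' := fun q kv ε η Ck R => by
    rw [hκ']
    simp only [hκ q kv ε η Ck R]
  refine ⟨g2 n A κ', g2_NoM nA nκ, gl_z2 hn hk2 (kz := kz) (fun q => ?_) (fun q => ?_) hM ?_ ?_⟩
  · rw [hκ']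
    simp only
    split_ifs with h
    · exact h
    · exact one_pos
  · rw [hA]
    positivity
  · refine hF.mono ?_
    rintro q ⟨c0, h⟩ d ok z hz
    obtain ⟨h1, h2⟩ := h d ok z hz
    rw [hA]
    simp only [abs_of_pos c0]
    constructor
    · rw [← div_eq_inv_mul, le_div_iff₀ c0]
      linarith
    · rw [← div_eq_inv_mul, le_div_iff₀ c0]
      linarith
  · refine hK.mono ?_
    rintro q ⟨c0, h⟩ d ok z hz
    rw [hκ']
    simp only [if_pos c0]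
    exact h d ok z hz

end letters

end Vale.Agent.P088.R2.H420.G
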