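import Vale.Agent.P088.R2.H420.G.NB

/-!
# P088, stage 3, row GAIN: the leaf `zI`
-/

open MeasureTheory Set Filter
open scoped ContDiff Topology Matrix

noncomputable section

namespace Vale.Agent.P088.R2.H420.G

open Vale.Agent.P088.LR Vale.Agent.P088.HY Vale.Agent.P088.R2.H961.GW
open Vale.Agent.P088.R2.H551.E Vale.Agent.P088.R2.H31.EP Vale.Agent.P088.R2.H455.E
open Vale.Agent.P088.R2.H935.G Vale.Agent.P088.R2.H349.EP
open Vale.Agent.P088.R2.H464.Cu (mid dif rq)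
open Vale.Agent.P088.R2.H850.E (lw)
open Vale.Agent.P088.R2.H867.EP (Zo)
open Vale.Agent.P088.R2.H972.EP (NkN evNkN Nz)
open Vale.Agent.P088.R2.H281.A (FinOk WinC evWin)
open Vale.Agent.P088.R2.H338.C (TL)
open Vale.Agent.P088.R2.H338.TC (Na rx ry)

variable {n : ℕ} {q : Cst} {d : Pk n}

/-- Adding a nonnegative letter. -/
theorem lw_add {E : Type*} [NormedAddCommGroup E] [NormedSpace ℝ E] {M T : Q8 E} {z : E}
    (h1 : 0 ≤ T.w₁ z) (h2 : 0 ≤ T.w₂ z) (h3 : 0 ≤ T.wb z) (h4 : 0 ≤ T.wc z) :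
    lw M z ≤ lw (M + T) z := by
  have e1 : (M + T).w₁ z = M.w₁ z + T.w₁ z := rfl
  have e2 : (M + T).w₂ z = M.w₂ z + T.w₂ z := rfl
  have e3 : (M + T).wb z = M.wb z + T.wb z := rfl
  have e4 : (M + T).wc z = M.wc z + T.wc z := rfl
  unfold lw
  rw [e1, e2, e3, e4]
  have k1 : min (M.w₁ z) (M.w₂ z) ≤ min (M.w₁ z + T.w₁ z) (M.w₂ z + T.w₂ z) :=
    min_le_min (by linarith) (by linarith)
  have k2 : min (M.wb z) (M.wc z) ≤ min (M.wb z + T.wb z) (M.wc z + T.wc z) :=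
    min_le_min (by linarith) (by linarith)
  linarith

/-- The constant of region I. -/
def CI' (n : ℕ) (q : Cst) : ℝ := CU n q + 5 * |q.cK|

/-- The gain of region I. -/
def gI (n : ℕ) (c : Cst → ℝ) (q : Cst) : ℝ := c q / (54 * CI' n q ^ 3)

theorem gI_NoM {c : Cst → ℝ} (hc : NoM c) : NoM (gI n c) := by
  intro q kv ε η Ck R
  unfold gI
  rw [hc q kv ε η Ck R]
  rfl

/-- **The gain row of region I.** -/
theorem gl_zI (hn : 1 ≤ n) {M : Fam n} {k : Cst → Pk n → VV n → ℝ} {c cN : Cst → ℝ}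
    (hc : ∀ q, 0 < c q) (hcN : ∀ q, 0 ≤ cN q)
    (hM : ∀ q d, M q d .zI = H165.Tab.MI (nu k q d) (c q) + TL (cN q) (Na d) (rx q d) (ry q d)) :
    RowGL M .zI (gI n c) := by
  refine ((((evNkN n).and evWin).and (EvC.fwQ hn)).and (((ev_sb n).and H238.C.EvC.thr).and
    ((H606.EP.evLm hn).and (EvC.pos.and (H932.EP.evNr n))))).mono ?_
  rintro q ⟨⟨⟨hk, hw⟩, hq⟩, ⟨hs, th⟩, lm, hp, nr⟩
  have hCU := CU_ge hq
  have hcK := abs_nonneg q.cK
  have hCI : 1 ≤ CI' n q := by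
    unfold CI'
    linarith
  have hC0 : 0 < CI' n q := by linarith
  have hg : 0 < gI n c q := by
    unfold gI
    have := hc q
    positivity
  have hR : 1 ≤ q.R := by linarith [hw.R1]
  have hi : (q.R ^ 2)⁻¹ ≤ 1 := inv_le_one_of_one_le₀ (by nlinarith)
  have hi0 : 0 < (q.R ^ 2)⁻¹ := by positivity
  refine ⟨hg, fun d ok z hz => ?_⟩
  obtain ⟨s1, s2⟩ := hs d ok
  have K := hk d ok .zI (Or.inl rfl) z hz
  have hr0 : 0 ≤ d.r2 z := by
    have := (nr.rb d ok z).1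
    show 0 ≤ 2 * rq (gi d.s₁) z
    linarith
  have hc1 : q.c₀ ≤ 1 / 8 := lm.c1
  have hc0 := lm.c0
  have hr1 : d.r2 z ≤ 1 := by
    have := K.r
    nlinarith
  have hN : 1 ≤ d.N q z := hw.M1.trans K.M0
  have hE0 : 0 < d.E q z := Real.exp_pos _
  have hNE0 := K.NE
  have hNE1 : d.N q z ≤ d.E q z := by
    have := th.aC1
    nlinarith
  have hE : 1 ≤ d.E q z := hN.trans hNE1
  have hm : 0 ≤ d.m q z := mul_nonneg hE0.le hr0
  have hNE : d.N q z ≤ CI' n q * d.E q z := by nlinarith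
  have hK : d.Kf q z ≤ 41 / 20 * d.N q z := H606.EP.K_le ok lm.toNm (by
    have := K.fin.ua
    linarith)
  have hmN : d.m q z ≤ CI' n q * d.N q z := by
    have h1 := K.ti rfl
    have hK0 : 0 < d.Kf q z := H238.C.K_pos ok _
    have h2 : q.cK * d.Kf q z ≤ |q.cK| * (41 / 20 * d.N q z) :=
      (mul_le_mul_of_nonneg_right (le_abs_self _) hK0.le).trans (mul_le_mul_of_nonneg_left hK hcK)
    have h3 : 0 ≤ |q.cK| * d.N q z := mul_nonneg hcK (by linarith only [hN])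
    have h4 : 0 ≤ CU n q * d.N q z := mul_nonneg (by linarith only [hCU]) (by linarith only [hN])
    unfold CI'
    rw [add_mul]
    linarith only [h1, h2, h3, h4]
  obtain ⟨uy, ux⟩ := up hw hq ok K.fin hr0 hr1
  have f1 : 0 ≤ d.sx.F (d.W q) z := by
    have k1 := (s1.el z.1 fun i => (fx d.s₁).D i (d.W q) z).1
    have k3 : 0 ≤ ∑ i, (fx d.s₁).D i (d.W q) z ^ 2 := Finset.sum_nonneg fun i _ => sq_nonneg _
    exact le_trans (by linarith) k1
  have f2 : 0 ≤ d.sy.F (d.W q) z := by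
    have k1 := (s2.el z.2 fun i => (fy d.s₂).D i (d.W q) z).1
    have k3 : 0 ≤ ∑ i, (fy d.s₂).D i (d.W q) z ^ 2 := Finset.sum_nonneg fun i _ => sq_nonneg _
    exact le_trans (by linarith) k1
  have hb : gI n c q * (q.R ^ 2)⁻¹ * (54 * CI' n q ^ 3) ≤ c q := by
    have e1 : gI n c q * (54 * CI' n q ^ 3) = c q := by
      unfold gI
      field_simp
    calc _ = gI n c q * (54 * CI' n q ^ 3) * (q.R ^ 2)⁻¹ := by ring
      _ ≤ gI n c q * (54 * CI' n q ^ 3) * 1 := mul_le_mul_of_nonneg_left hi (by positivity)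
      _ = _ := by rw [mul_one, e1]
  have hNa : 0 ≤ Na d z := le_trans (by linarith [hw.M1]) (H238.C.N_ge ok _)
  have hcn := hcN q
  have key : ∀ F L : ℝ, F ≤ CI' n q * (d.N q z ^ 2 + d.E q z * (1 + d.m q z)) →
      L ≤ CI' n q * (d.N q z ^ 2 + d.E q z * (1 + d.m q z)) →
      gI n c q * (q.R ^ 2)⁻¹ * (F + L + 1) ≤ lw (M q d .zI) z := fun F L hF hL => by
    rw [hM]
    refine (g_MI (ν := nu k q d) (hc q) hE hm hN (by positivity) hCI hF hL hmN hNE f1 f2 hb).trans ?_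
    refine lw_add ?_ ?_ le_rfl le_rfl
    · show 0 ≤ cN q * (Na d z ^ 2 * rx q d z ^ 2 + Na d z ^ 3 * ry q d z ^ 2)
      positivity
    · show 0 ≤ cN q * (Na d z ^ 3 * rx q d z ^ 2 + Na d z ^ 2 * ry q d z ^ 2)
      positivity
  have kk : ∀ F L : ℝ, F ≤ CU n q * (d.N q z ^ 2 + d.E q z * d.m q z) →
      L ≤ CU n q * (d.N q z + d.E q z) →
      gI n c q * (q.R ^ 2)⁻¹ * (F + L + 1) ≤ lw (M q d .zI) z := fun F L hF hL => by
    have c1 : CU n q ≤ CI' n q := by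
      unfold CI'
      linarith only [hcK]
    have hE0 : 0 ≤ d.E q z := by linarith only [hE]
    have hN0 : 0 ≤ d.N q z := by linarith only [hN]
    exact key F L (hF.trans (mul_le_mul c1 (ar1 hE0)
      (add_nonneg (sq_nonneg _) (mul_nonneg hE0 hm)) hC0.le))
      (hL.trans (mul_le_mul c1 (ar2 hN hE0 hm) (add_nonneg hN0 hE0) hC0.le))
  have X0 : 0 ≤ d.N q z ^ 2 + d.E q z * (1 + d.m q z) := by positivity
  refine ⟨fun h5 => ?_, fun h5 => ?_, ?_⟩
  · obtain ⟨a1, a2⟩ := uy s2 h5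
    exact kk _ _ a1 a2
  · obtain ⟨a1, a2⟩ := ux s1 h5
    exact kk _ _ a1 a2
  · have := key 0 0 (by positivity) (by positivity)
    simpa using this

/-- **The gain row of region I for the letters.** -/
theorem gl_zI_L (hn : 1 ≤ n) {L : Lc n} (hL : L.Ok) :
    NoM (gI n L.cI) ∧ RowGL (Mz L) .zI (gI n L.cI) := by
  refine ⟨gI_NoM fun q kv ε η Ck R => ?_, gl_zI hn hL.cI.1 (fun q => (hL.cN.1 q).le) (k := L.kz)
    fun _ _ => rfl⟩
  have h1 := hL.cI.2 { q with kv := kv, ε := ε, η := η, Ck := Ck, R := R }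
  have h2 := hL.cI.2 q
  rw [← h1, ← h2]
  rfl

end Vale.Agent.P088.R2.H420.G
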